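import Vale.Agent.P254r.Defs
import Vale.Agent.P254.CovK

/-!
P254r [R8]: the covariance matrix of a body of revolution is diagonal.
-/

namespace Vale.Agent.P254r

open MeasureTheory Vale.Agent.P254

namespace Cov

open Vale.Agent.P248 (sgn)

theorem sgn_mem {m : ℕ} {K : Set (Fin (m + 1) → ℝ)} (hr : Revol K)
    (s : Fin (m + 1) → ℤˣ) (h0 : s 0 = 1) {x : Fin (m + 1) → ℝ} (hx : x ∈ K) : sgn s x ∈ K := by
  refine hr x hx _ ?_ ?_
  · simp [sgn, h0]
  · refine Finset.sum_congr rfl fun i _ => ?_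
    rcases Vale.Agent.P248.Orth.unit_cases (s i.succ) with h5 | h5 <;> simp [sgn, h5]

theorem pre_sgn {m : ℕ} {K : Set (Fin (m + 1) → ℝ)} (hr : Revol K)
    (s : Fin (m + 1) → ℤˣ) (h0 : s 0 = 1) : sgn s ⁻¹' K = K := by
  ext x
  constructor
  · intro hx
    have h := sgn_mem hr s h0 hx
    rwa [Vale.Agent.P248.Orth.sgn_invol s x] at h
  · intro hx
    exact sgn_mem hr s h0 hx

theorem int_sgn {m : ℕ} {K : Set (Fin (m + 1) → ℝ)} (hr : Revol K)
    (s : Fin (m + 1) → ℤˣ) (h0 : s 0 = 1) (f : (Fin (m + 1) → ℝ) → ℝ) :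
    ∫ x in K, f (sgn s x) = ∫ x in K, f x := by
  have h := (Vale.Agent.P248.Orth.preserving_sgn s).setIntegral_preimage_emb (CovK.me_sgn s) f K
  rwa [pre_sgn hr s h0] at h

/-- flip of one coordinate -/
def flip {m : ℕ} (i : Fin m) : Fin (m + 1) → ℤˣ := fun k => if k = i.succ then -1 else 1

theorem flip_zero {m : ℕ} (i : Fin m) : flip i 0 = 1 := by
  simp [flip, (Fin.succ_ne_zero i).symm]

theorem sgn_flip_self {m : ℕ} (i : Fin m) (x : Fin (m + 1) → ℝ) :
    sgn (flip i) x i.succ = - x i.succ := by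
  simp [sgn, flip]

theorem sgn_flip_ne {m : ℕ} (i : Fin m) (x : Fin (m + 1) → ℝ) {j : Fin (m + 1)}
    (hj : j ≠ i.succ) : sgn (flip i) x j = x j := by
  simp [sgn, flip, hj]

theorem cen_succ {m : ℕ} {K : Set (Fin (m + 1) → ℝ)} (hr : Revol K) (i : Fin m) :
    centroid K i.succ = 0 := by
  have h := int_sgn hr (flip i) (flip_zero i) (fun x => x i.succ)
  simp only [sgn_flip_self, integral_neg] at h
  have h3 : ∫ x in K, x i.succ = 0 := by linarith
  rw [centroid, h3, zero_div]

theorem off {m : ℕ} {K : Set (Fin (m + 1) → ℝ)} (hr : Revol K) (i : Fin (m + 1)) (j : Fin m)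
    (hij : i ≠ j.succ) :
    ∫ x in K, (x i - centroid K i) * (x j.succ - centroid K j.succ) = 0 := by
  have h := int_sgn hr (flip j) (flip_zero j)
    (fun x => (x i - centroid K i) * (x j.succ - centroid K j.succ))
  simp only [sgn_flip_self, sgn_flip_ne j _ hij, cen_succ hr j, sub_zero, mul_neg,
    integral_neg] at h
  simp only [cen_succ hr j, sub_zero]
  linarith

end Cov

/-- [R8] Cov.lean: the covariance matrix is diagonal -/
theorem cov_rev {m : ℕ} {K : Set (Fin (m + 1) → ℝ)} (hc : IsCompact K) (hr : Revol K) :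
    (cov K).det = ((∫ x in K, (x 0 - centroid K 0) ^ 2) / volume.real K) *
      ∏ i : Fin m, ((∫ x in K, x i.succ ^ 2) / volume.real K) := by
  have hcov : cov K = Matrix.diagonal
      (Fin.cons ((∫ x in K, (x 0 - centroid K 0) ^ 2) / volume.real K)
        (fun i : Fin m => (∫ x in K, x i.succ ^ 2) / volume.real K) : Fin (m + 1) → ℝ) := by
    ext i j
    rw [cov]
    by_cases hij : i = j
    · subst hij
      rw [Matrix.diagonal_apply_eq]
      refine Fin.cases ?_ (fun k => ?_) i
      · simp only [Fin.cons_zero, sq]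
      · simp only [Fin.cons_succ, Cov.cen_succ hr k, sub_zero, sq]
    · rw [Matrix.diagonal_apply_ne _ hij]
      rcases Fin.eq_zero_or_eq_succ j with hj | ⟨k, hk⟩
      · rcases Fin.eq_zero_or_eq_succ i with hi | ⟨l, hl⟩
        · exact absurd (hi.trans hj.symm) hij
        · subst hl
          have h := Cov.off hr j l (fun h => hij h.symm)
          simp only [mul_comm] at h ⊢
          rw [h, zero_div]
      · subst hk
        rw [Cov.off hr i k hij, zero_div]
  rw [hcov, Matrix.det_diagonal, Fin.prod_univ_succ]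
  simp only [Fin.cons_zero, Fin.cons_succ]

end Vale.Agent.P254r
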