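import Vale.Agent.P254r.Defs

/-!
P254r, row R7: from the body to its halves.
-/

namespace Vale.Agent.P254r

open MeasureTheory Vale.Agent.P254 Vale.Agent.P254.NS
open scoped ENNReal

namespace Fub

theorem sec_meas {m : ℕ} {D : Set (Fin (m + 1) → ℝ)} (hD : MeasurableSet D) (t : ℝ) :
    MeasurableSet (sec D t) :=
  (NS.Sec.cont_cons' t).measurable hD

theorem vol_meas {m : ℕ} {D : Set (Fin (m + 1) → ℝ)} (hD : MeasurableSet D) :
    Measurable fun t => volume (sec D t) := by
  have h1 : MeasurableSet ((fun p : ℝ × (Fin m → ℝ) =>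
      (Fin.cons p.1 p.2 : Fin (m + 1) → ℝ)) ⁻¹' D) := NS.Sec.cont_cons.measurable hD
  exact measurable_measure_prodMk_left h1

theorem fubg {m : ℕ} {D : Set (Fin (m + 1) → ℝ)} (hD : MeasurableSet D) {g : ℝ → ℝ≥0∞}
    (hg : Measurable g) : ∫⁻ x in D, g (x 0) = ∫⁻ t, g t * volume (sec D t) := by
  have hm : Measurable fun x : Fin (m + 1) → ℝ => g (x 0) := hg.comp (measurable_pi_apply 0)
  rw [← lintegral_indicator hD, NS.Sec.lintegral_fin_succ (hm.indicator hD)]
  refine lintegral_congr fun t => ?_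
  rw [← setLIntegral_const, ← lintegral_indicator (sec_meas hD t)]
  refine lintegral_congr fun v => ?_
  by_cases hv : (Fin.cons t v : Fin (m + 1) → ℝ) ∈ D
  · have hv' : v ∈ sec D t := hv
    rw [Set.indicator_of_mem hv, Set.indicator_of_mem hv', Fin.cons_zero]
  · have hv' : v ∉ sec D t := hv
    rw [Set.indicator_of_notMem hv, Set.indicator_of_notMem hv']

/-- splitting the line at `t0` -/
theorem split (H : ℝ → ℝ≥0∞) (t0 : ℝ) :
    ∫⁻ t, H t = (∫⁻ s, (Set.Ici (0 : ℝ)).indicator (fun s => H (t0 + s)) s) +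
      ∫⁻ s, (Set.Ici (0 : ℝ)).indicator (fun s => H (t0 - s)) s := by
  rw [← lintegral_add_left_eq_self H t0,
    ← lintegral_add_compl (fun t => H (t0 + t)) (measurableSet_Ici (a := (0 : ℝ))),
    lintegral_indicator measurableSet_Ici, lintegral_indicator measurableSet_Ici]
  congr 1
  rw [← setLIntegral_congr (Ioi_ae_eq_Ici (a := (0 : ℝ)) (μ := volume)),
    ← lintegral_indicator measurableSet_Ioi, ← lintegral_indicator measurableSet_Ici.compl,
    ← lintegral_neg_eq_self]
  refine lintegral_congr fun s => ?_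
  by_cases hs : 0 < s
  · have h1 : s ∈ Set.Ioi (0 : ℝ) := hs
    have h2 : -s ∈ (Set.Ici (0 : ℝ))ᶜ := by
      simp only [Set.mem_compl_iff, Set.mem_Ici, not_le]
      linarith
    rw [Set.indicator_of_mem h1, Set.indicator_of_mem h2]
    rfl
  · have h1 : s ∉ Set.Ioi (0 : ℝ) := hs
    have h2 : -s ∉ (Set.Ici (0 : ℝ))ᶜ := by
      simp only [Set.mem_compl_iff, Set.mem_Ici, not_le, not_lt]
      linarith
    rw [Set.indicator_of_notMem h1, Set.indicator_of_notMem h2]

theorem sec_flip {m : ℕ} {K : Set (Fin (m + 1) → ℝ)} (hr : Revol K) (t : ℝ)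
    (s : Fin m → ℤˣ) (y : Fin m → ℝ) (hy : y ∈ sec K t) :
    (fun i => ((s i : ℤ) : ℝ) * y i) ∈ sec K t := by
  refine hr _ hy _ ?_ ?_
  · rw [Fin.cons_zero, Fin.cons_zero]
  · refine Finset.sum_congr rfl fun i _ => ?_
    rw [Fin.cons_succ, Fin.cons_succ]
    rcases Vale.Agent.P248.Orth.unit_cases (s i) with h | h <;> rw [h] <;> ring

theorem sec_compact {m : ℕ} {K : Set (Fin (m + 1) → ℝ)} (hc : IsCompact K) (t : ℝ) :
    IsCompact (sec K t) := by
  have h1 : sec K t = (fun x : Fin (m + 1) → ℝ => Fin.tail x) '' (K ∩ {x | x 0 = t}) := by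
    ext y
    constructor
    · intro hy
      exact ⟨Fin.cons t y, ⟨hy, by simp⟩, by simp⟩
    · rintro ⟨x, ⟨hx, hx0⟩, rfl⟩
      have h2 : x 0 = t := hx0
      show (Fin.cons t (Fin.tail x) : Fin (m + 1) → ℝ) ∈ K
      rw [← h2, Fin.cons_self_tail]
      exact hx
  rw [h1]
  refine IsCompact.image (hc.inter_right (isClosed_eq (continuous_apply 0) continuous_const)) ?_
  exact continuous_pi fun i => continuous_apply i.succ

theorem vol_sec {m : ℕ} {K : Set (Fin (m + 1) → ℝ)} (hc : IsCompact K) (hr : Revol K) (t : ℝ) :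
    volume (sec K t) = 2 ^ m * volume (posPart (sec K t)) := by
  have h := vol_pos (sec_compact hc t) (fun s y hy => sec_flip hr t s y hy)
  have h1 : volume (sec K t) ≠ ∞ := (sec_compact hc t).measure_lt_top.ne
  have h2 : volume (posPart (sec K t)) ≠ ∞ :=
    (lt_of_le_of_lt (measure_mono Set.inter_subset_left) h1.lt_top).ne
  rw [← ENNReal.ofReal_toReal h1, ← ENNReal.ofReal_toReal h2]
  have h3 : (volume (sec K t)).toReal = 2 ^ m * (volume (posPart (sec K t))).toReal := h
  rw [h3, ENNReal.ofReal_mul (by positivity), ENNReal.ofReal_pow (by norm_num)]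
  norm_num

theorem half_meas {m : ℕ} {K : Set (Fin (m + 1) → ℝ)} (hc : IsCompact K) (t0 σ : ℝ) :
    MeasurableSet (half K t0 σ) := by
  have h1 : half K t0 σ = {x | ∀ i, 0 ≤ x i} ∩
      (fun x : Fin (m + 1) → ℝ => (Fin.cons (t0 + σ * x 0) (Fin.tail x) : Fin (m + 1) → ℝ)) ⁻¹' K :=
    rfl
  rw [h1]
  refine MeasurableSet.inter ?_ ?_
  · have : {x : Fin (m + 1) → ℝ | ∀ i, 0 ≤ x i} = ⋂ i, {x : Fin (m + 1) → ℝ | 0 ≤ x i} := by
      ext x
      simp
    rw [this]
    exact MeasurableSet.iInter fun i => measurableSet_le measurable_const (measurable_pi_apply i)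
  · refine Continuous.measurable ?_ hc.measurableSet
    have h2 : Continuous fun x : Fin (m + 1) → ℝ => ((t0 + σ * x 0, Fin.tail x) : ℝ × (Fin m → ℝ)) :=
      (continuous_const.add (continuous_const.mul (continuous_apply 0))).prodMk
        (continuous_pi fun i => continuous_apply i.succ)
    exact NS.Sec.cont_cons.comp h2

theorem half_sec {m : ℕ} (K : Set (Fin (m + 1) → ℝ)) (t0 σ t : ℝ) :
    A (half K t0 σ) t = (Set.Ici (0 : ℝ)).indicator
      (fun t => volume (posPart (sec K (t0 + σ * t)))) t := by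
  unfold A
  by_cases ht : 0 ≤ t
  · have h1 : t ∈ Set.Ici (0 : ℝ) := ht
    rw [Set.indicator_of_mem h1]
    congr 1
    ext y
    constructor
    · rintro ⟨h2, h3⟩
      refine ⟨?_, fun i => ?_⟩
      · rw [Fin.cons_zero, Fin.tail_cons] at h3
        exact h3
      · have := h2 i.succ
        rwa [Fin.cons_succ] at this
    · rintro ⟨h2, h3⟩
      refine ⟨fun i => ?_, ?_⟩
      · refine Fin.cases ?_ (fun j => ?_) i
        · rw [Fin.cons_zero]
          exact ht
        · rw [Fin.cons_succ]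
          exact h3 j
      · rw [Fin.cons_zero, Fin.tail_cons]
        exact h2
  · have h1 : t ∉ Set.Ici (0 : ℝ) := ht
    rw [Set.indicator_of_notMem h1]
    have h2 : sec (half K t0 σ) t = ∅ := by
      rw [Set.eq_empty_iff_forall_notMem]
      rintro y ⟨h2, _⟩
      have := h2 0
      rw [Fin.cons_zero] at this
      exact ht this
    rw [h2, measure_empty]

end Fub

/-- [R7] Fub.lean: from the body to its halves -/
theorem int_half {m : ℕ} {K : Set (Fin (m + 1) → ℝ)} (hc : IsCompact K) (hr : Revol K)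
    (t0 : ℝ) {g : ℝ → ℝ≥0∞} (hg : Measurable g) :
    ∫⁻ x in K, g (x 0) = 2 ^ m * ((∫⁻ x in half K t0 1, g (t0 + x 0)) +
      ∫⁻ x in half K t0 (-1), g (t0 - x 0)) := by
  have e1 : ∫⁻ x in half K t0 1, g (t0 + x 0) = ∫⁻ t, g (t0 + t) * A (half K t0 1) t :=
    Fub.fubg (Fub.half_meas hc t0 1) (g := fun t => g (t0 + t))
      (hg.comp (measurable_const.add measurable_id))
  have e2 : ∫⁻ x in half K t0 (-1), g (t0 - x 0) = ∫⁻ t, g (t0 - t) * A (half K t0 (-1)) t :=
    Fub.fubg (Fub.half_meas hc t0 (-1)) (g := fun t => g (t0 - t))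
      (hg.comp (measurable_const.sub measurable_id))
  rw [Fub.fubg hc.measurableSet hg, Fub.split _ t0, e1, e2, mul_add,
    ← lintegral_const_mul' _ _ (by simp), ← lintegral_const_mul' _ _ (by simp)]
  congr 1
  · refine lintegral_congr fun s => ?_
    rw [Fub.half_sec]
    by_cases hs : s ∈ Set.Ici (0 : ℝ)
    · rw [Set.indicator_of_mem hs, Set.indicator_of_mem hs, Fub.vol_sec hc hr, one_mul]
      ring
    · rw [Set.indicator_of_notMem hs, Set.indicator_of_notMem hs, mul_zero, mul_zero]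
  · refine lintegral_congr fun s => ?_
    rw [Fub.half_sec]
    by_cases hs : s ∈ Set.Ici (0 : ℝ)
    · rw [Set.indicator_of_mem hs, Set.indicator_of_mem hs, Fub.vol_sec hc hr,
        show t0 + -1 * s = t0 - s by ring]
      ring
    · rw [Set.indicator_of_notMem hs, Set.indicator_of_notMem hs, mul_zero, mul_zero]

/-- [R7] Fub.lean -/
theorem sec_half {m : ℕ} {K : Set (Fin (m + 1) → ℝ)} (hc : IsCompact K) (hr : Revol K)
    (t0 : ℝ) : ∫⁻ t, volume (sec K t) ^ 2 = 4 ^ m * ((∫⁻ t, A (half K t0 1) t ^ 2) +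
      ∫⁻ t, A (half K t0 (-1)) t ^ 2) := by
  have h4 : (4 : ℝ≥0∞) ^ m = 2 ^ m * 2 ^ m := by
    rw [← mul_pow]
    norm_num
  rw [Fub.split _ t0, mul_add,
    ← lintegral_const_mul' _ _ (by simp), ← lintegral_const_mul' _ _ (by simp)]
  congr 1
  · refine lintegral_congr fun s => ?_
    rw [Fub.half_sec]
    by_cases hs : s ∈ Set.Ici (0 : ℝ)
    · rw [Set.indicator_of_mem hs, Set.indicator_of_mem hs, Fub.vol_sec hc hr, one_mul, h4]
      ring
    · rw [Set.indicator_of_notMem hs, Set.indicator_of_notMem hs]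
      simp
  · refine lintegral_congr fun s => ?_
    rw [Fub.half_sec]
    by_cases hs : s ∈ Set.Ici (0 : ℝ)
    · rw [Set.indicator_of_mem hs, Set.indicator_of_mem hs, Fub.vol_sec hc hr,
        show t0 + -1 * s = t0 - s by ring, h4]
      ring
    · rw [Set.indicator_of_notMem hs, Set.indicator_of_notMem hs]
      simp

end Vale.Agent.P254r
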