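import Vale.Agent.P254r.Defs

/-!
P254r, row R5: the second moment of a Euclidean ball in one coordinate, by comparison with the cube
of the same volume.
-/

namespace Vale.Agent.P254r

open MeasureTheory
open scoped ENNReal

namespace BallM

/-- the Euclidean ball of radius `ρ` -/
def eb (m : ℕ) (ρ : ℝ) : Set (Fin m → ℝ) := {y | ∑ i, y i ^ 2 ≤ ρ ^ 2}

theorem meas (m : ℕ) (ρ : ℝ) : MeasurableSet (eb m ρ) :=
  (isClosed_le (by fun_prop) continuous_const).measurableSet

theorem vol_ne_top (m : ℕ) {ρ : ℝ} (hρ : 0 ≤ ρ) : volume (eb m ρ) ≠ ∞ := by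
  have h : eb m ρ ⊆ Set.Icc (fun _ => -ρ) (fun _ => ρ) := by
    intro y hy
    have h1 : ∀ i, |y i| ≤ ρ := by
      intro i
      rw [← abs_of_nonneg hρ, ← sq_le_sq]
      exact (Finset.single_le_sum (f := fun i => y i ^ 2) (fun j _ => sq_nonneg _)
        (Finset.mem_univ i)).trans hy
    exact ⟨fun i => (abs_le.1 (h1 i)).1, fun i => (abs_le.1 (h1 i)).2⟩
  exact ((measure_mono h).trans_lt isCompact_Icc.measure_lt_top).ne

/-- permutation symmetry -/
theorem mom_swap {m : ℕ} (ρ : ℝ) (i j : Fin m) :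
    ∫⁻ y in eb m ρ, ENNReal.ofReal (y i ^ 2) = ∫⁻ y in eb m ρ, ENNReal.ofReal (y j ^ 2) := by
  have h := volume_measurePreserving_piCongrLeft (fun _ : Fin m => ℝ) (Equiv.swap i j)
  have hk : ∀ (y : Fin m → ℝ) k,
      (MeasurableEquiv.piCongrLeft (fun _ : Fin m => ℝ) (Equiv.swap i j)) y k =
        y (Equiv.swap i j k) := by
    intro y k
    obtain ⟨l, rfl⟩ := (Equiv.swap i j).surjective k
    rw [MeasurableEquiv.coe_piCongrLeft, Equiv.piCongrLeft_apply_apply, Equiv.swap_apply_self]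
  rw [← h.setLIntegral_comp_preimage_emb (MeasurableEquiv.measurableEmbedding _)]
  have e : (MeasurableEquiv.piCongrLeft (fun _ : Fin m => ℝ) (Equiv.swap i j)) ⁻¹' eb m ρ =
      eb m ρ := by
    ext y
    show ∑ k, _ ^ 2 ≤ ρ ^ 2 ↔ ∑ k, y k ^ 2 ≤ ρ ^ 2
    simp only [hk]
    rw [Equiv.sum_comp (Equiv.swap i j) (fun k => y k ^ 2)]
  rw [e]
  refine lintegral_congr fun y => ?_
  rw [hk, Equiv.swap_apply_left]

/-- the cube of side `s` -/
def cube (m : ℕ) (s : ℝ) : Set (Fin m → ℝ) := Set.pi Set.univ fun _ => Set.Icc (-(s / 2)) (s / 2)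

theorem cube_vol (m : ℕ) {s : ℝ} : volume (cube m s) = ENNReal.ofReal s ^ m := by
  rw [cube, volume_pi_pi]
  simp [Real.volume_Icc]

theorem seg (s : ℝ) (hs : 0 ≤ s) : ∫⁻ t in Set.Icc (-(s / 2)) (s / 2), ENNReal.ofReal (t ^ 2) =
    ENNReal.ofReal (s ^ 3 / 12) := by
  rw [← ofReal_integral_eq_lintegral_ofReal]
  · congr 1
    rw [integral_Icc_eq_integral_Ioc, ← intervalIntegral.integral_of_le (by linarith),
      integral_pow]
    ring
  · exact (by fun_prop : Continuous fun t : ℝ => t ^ 2).integrableOn_Icc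
  · exact Filter.Eventually.of_forall fun t => sq_nonneg t

theorem cube_mom (m : ℕ) {s : ℝ} (hs : 0 ≤ s) (i : Fin m) :
    ∫⁻ y in cube m s, ENNReal.ofReal (y i ^ 2) =
      ENNReal.ofReal s ^ (m - 1) * ENNReal.ofReal (s ^ 3 / 12) := by
  classical
  rw [cube, volume_pi, Measure.restrict_pi_pi]
  have hm : Measurable fun t : ℝ => ENNReal.ofReal (t ^ 2) := by fun_prop
  have h3 : Measure.map (fun y : Fin m → ℝ => y i) (Measure.pi fun _ : Fin m =>
      (volume : Measure ℝ).restrict (Set.Icc (-(s / 2)) (s / 2))) =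
      (∏ j ∈ Finset.univ.erase i, (volume : Measure ℝ).restrict (Set.Icc (-(s / 2)) (s / 2))
        Set.univ) • (volume : Measure ℝ).restrict (Set.Icc (-(s / 2)) (s / 2)) :=
    Measure.pi_map_eval (μ := fun _ : Fin m =>
      (volume : Measure ℝ).restrict (Set.Icc (-(s / 2)) (s / 2))) i
  have h4 : Measurable fun y : Fin m → ℝ => y i := measurable_pi_apply i
  rw [← lintegral_map (f := fun t : ℝ => ENNReal.ofReal (t ^ 2)) hm h4, h3,
    lintegral_smul_measure, seg s hs]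
  simp [Real.volume_Icc, Finset.prod_const, Finset.card_erase_of_mem]

theorem bath {m : ℕ} {ρ : ℝ} {C : Set (Fin m → ℝ)} (hC : MeasurableSet C)
    (hv : volume C = volume (eb m ρ)) (hfin : volume (eb m ρ) ≠ ∞) :
    ∫⁻ y in eb m ρ, ENNReal.ofReal (∑ i, y i ^ 2) ≤ ∫⁻ y in C, ENNReal.ofReal (∑ i, y i ^ 2) := by
  set f : (Fin m → ℝ) → ℝ≥0∞ := fun y => ENNReal.ofReal (∑ i, y i ^ 2) with hf
  set r : ℝ≥0∞ := ENNReal.ofReal (ρ ^ 2) with hr
  have hfm : Measurable f := by fun_prop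
  have hB := meas m ρ
  have key : ∫⁻ y, ((eb m ρ).indicator f y + C.indicator (fun _ => r) y) ≤
      ∫⁻ y, (C.indicator f y + (eb m ρ).indicator (fun _ => r) y) := by
    refine lintegral_mono fun y => ?_
    by_cases h1 : y ∈ eb m ρ <;> by_cases h2 : y ∈ C
    · simp [h1, h2]
    · simp only [h1, h2, Set.indicator_of_mem, Set.indicator_of_notMem, not_false_iff, add_zero,
        zero_add]
      exact ENNReal.ofReal_le_ofReal h1
    · simp only [h1, h2, Set.indicator_of_mem, Set.indicator_of_notMem, not_false_iff, add_zero,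
        zero_add]
      exact ENNReal.ofReal_le_ofReal (le_of_not_ge h1)
    · simp [h1, h2]
  rw [lintegral_add_left (hfm.indicator hB), lintegral_add_left (hfm.indicator hC),
    lintegral_indicator hB, lintegral_indicator hC, lintegral_indicator hC, lintegral_indicator hB,
    setLIntegral_const, setLIntegral_const, hv] at key
  exact (ENNReal.add_le_add_iff_right (ENNReal.mul_ne_top ENNReal.ofReal_ne_top hfin)).1 key

theorem main {m : ℕ} (hm : 0 < m) (i : Fin m) {ρ : ℝ} (hρ : 0 ≤ ρ) :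
    ∫⁻ y in eb m ρ, ENNReal.ofReal (y i ^ 2) ≤
      ENNReal.ofReal (1 / 12) * volume (eb m ρ) ^ (1 + 2 / (m : ℝ)) := by
  have hfin := vol_ne_top m hρ
  have hm0 : (m : ℝ) ≠ 0 := by exact_mod_cast hm.ne'
  set s : ℝ := (volume (eb m ρ)).toReal ^ (1 / (m : ℝ)) with hs
  have hs0 : 0 ≤ s := by positivity
  have hsm : s ^ m = (volume (eb m ρ)).toReal := by
    rw [hs, ← Real.rpow_natCast, ← Real.rpow_mul ENNReal.toReal_nonneg]
    rw [one_div, inv_mul_cancel₀ hm0, Real.rpow_one]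
  have hvs : ENNReal.ofReal s ^ m = volume (eb m ρ) := by
    rw [← ENNReal.ofReal_pow hs0, hsm, ENNReal.ofReal_toReal hfin]
  have hC : MeasurableSet (cube m s) := MeasurableSet.univ_pi fun _ => measurableSet_Icc
  have hb := bath hC ((cube_vol m).trans hvs) hfin
  have hsum : ∀ y : Fin m → ℝ, ENNReal.ofReal (∑ j, y j ^ 2) = ∑ j, ENNReal.ofReal (y j ^ 2) :=
    fun y => ENNReal.ofReal_sum_of_nonneg fun j _ => sq_nonneg _
  simp only [hsum] at hb
  rw [lintegral_finsetSum _ (fun j _ => by fun_prop),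
    lintegral_finsetSum _ (fun j _ => by fun_prop)] at hb
  rw [Finset.sum_congr rfl (fun j _ => mom_swap ρ j i),
    Finset.sum_congr rfl (fun j _ => cube_mom m hs0 j)] at hb
  simp only [Finset.sum_const, Finset.card_univ, Fintype.card_fin, nsmul_eq_mul] at hb
  have hb2 := (ENNReal.mul_le_mul_iff_right (a := (m : ℝ≥0∞)) (by exact_mod_cast hm.ne')
    (ENNReal.natCast_ne_top m)).1 hb
  refine hb2.trans (le_of_eq ?_)
  rw [← hvs]
  obtain ⟨k, rfl⟩ : ∃ k, m = k + 1 := ⟨m - 1, by omega⟩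
  rw [← ENNReal.rpow_natCast, ← ENNReal.rpow_natCast, ← ENNReal.rpow_mul]
  have e1 : ((k + 1 : ℕ) : ℝ) * (1 + 2 / ((k + 1 : ℕ) : ℝ)) = ((k + 3 : ℕ) : ℝ) := by
    push_cast at hm0 ⊢
    field_simp
    ring
  rw [e1, ENNReal.rpow_natCast, ENNReal.rpow_natCast]
  rw [show s ^ 3 / 12 = 1 / 12 * s ^ 3 by ring, ENNReal.ofReal_mul (by norm_num),
    ENNReal.ofReal_pow hs0]
  simp only [Nat.add_sub_cancel]
  ring

end BallM

/-- The second moment of a Euclidean ball in one coordinate. -/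
theorem ball_moment {m : ℕ} (hm : 2 ≤ m) (i : Fin m) {ρ : ℝ} (hρ : 0 ≤ ρ) :
    ∫⁻ y in eball m ρ, ENNReal.ofReal (y i ^ 2) ≤
      ENNReal.ofReal (1 / 12) * volume (eball m ρ) ^ (1 + 2 / (m : ℝ)) :=
  BallM.main (by omega) i hρ

end Vale.Agent.P254r
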