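import Vale.Agent.P254r.Half
import Vale.Agent.P254r.Ball
import Vale.Agent.P254.Sec

/-! P254r, row R6: the second moment in a direction orthogonal to the axis. -/

namespace Vale.Agent.P254r

open MeasureTheory Vale.Agent.P254 Vale.Agent.P254.NS
open scoped ENNReal

namespace MomK

theorem sec_meas {m : ℕ} {K : Set (Fin (m + 1) → ℝ)} (hc : IsCompact K) (t : ℝ) :
    MeasurableSet (sec K t) :=
  (P254.Sec.cont_cons' t).measurable hc.measurableSet

theorem fub {m : ℕ} {K : Set (Fin (m + 1) → ℝ)} (hc : IsCompact K)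
    {g : (Fin (m + 1) → ℝ) → ℝ≥0∞} (hg : Measurable g) :
    ∫⁻ x in K, g x = ∫⁻ t : ℝ, ∫⁻ y in sec K t, g (Fin.cons t y) := by
  have hD : MeasurableSet K := hc.measurableSet
  rw [← lintegral_indicator hD, P254.Sec.lintegral_fin_succ (hg.indicator hD)]
  refine lintegral_congr fun t => ?_
  rw [← lintegral_indicator (sec_meas hc t)]
  rfl

theorem sec_compact {m : ℕ} {K : Set (Fin (m + 1) → ℝ)} (hc : IsCompact K) (t : ℝ) :
    IsCompact (sec K t) := by
  have h1 : IsClosed (sec K t) := hc.isClosed.preimage (P254.Sec.cont_cons' t)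
  have h2 : sec K t ⊆ (fun x : Fin (m + 1) → ℝ => Fin.tail x) '' K := by
    intro y hy
    exact ⟨Fin.cons t y, hy, Fin.tail_cons _ _⟩
  have h3 : Continuous (fun x : Fin (m + 1) → ℝ => (Fin.tail x : Fin m → ℝ)) :=
    continuous_pi fun i => continuous_apply i.succ
  exact (hc.image h3).of_isClosed_subset h1 h2

/-- the sections are empty or balls -/
theorem sec_ball {m : ℕ} {K : Set (Fin (m + 1) → ℝ)} (hK : Convex ℝ K) (hc : IsCompact K)
    (hr : Revol K) (t : ℝ) : sec K t = ∅ ∨ ∃ ρ : ℝ, 0 ≤ ρ ∧ sec K t = eball m ρ := by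
  rcases Set.eq_empty_or_nonempty (sec K t) with h | h
  · exact Or.inl h
  · right
    have hcont : Continuous (fun y : Fin m → ℝ => ∑ i, y i ^ 2) := by
      exact continuous_finsetSum _ fun i _ => (continuous_apply i).pow 2
    obtain ⟨y0, hy0, hmax⟩ := (sec_compact hc t).exists_isMaxOn h hcont.continuousOn
    have hs0 : 0 ≤ ∑ i, y0 i ^ 2 := Finset.sum_nonneg fun i _ => sq_nonneg _
    refine ⟨Real.sqrt (∑ i, y0 i ^ 2), Real.sqrt_nonneg _, ?_⟩
    ext y
    unfold eball
    rw [Set.mem_ofPred_eq, Real.sq_sqrt hs0]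
    constructor
    · intro hy
      exact hmax hy
    · intro hy
      refine ball_down hK hr (x := (Fin.cons t y0 : Fin (m + 1) → ℝ)) hy0 ?_ ?_
      · simp
      · simpa using hy

end MomK

/-- [R6] second moment in a coordinate orthogonal to the axis (uses [R1], [R5]) -/
theorem mom_le {m : ℕ} (hm : 2 ≤ m) {K : Set (Fin (m + 1) → ℝ)} (hK : Convex ℝ K)
    (hc : IsCompact K) (hr : Revol K) (i : Fin m) :
    ∫⁻ x in K, ENNReal.ofReal (x i.succ ^ 2) ≤
      ENNReal.ofReal (1 / 12) * ∫⁻ t, volume (sec K t) ^ (1 + 2 / (m : ℝ)) := by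
  have hg : Measurable (fun x : Fin (m + 1) → ℝ => ENNReal.ofReal (x i.succ ^ 2)) :=
    ENNReal.measurable_ofReal.comp ((measurable_pi_apply i.succ).pow_const 2)
  rw [MomK.fub hc hg, ← lintegral_const_mul' _ _ ENNReal.ofReal_ne_top]
  refine lintegral_mono fun t => ?_
  simp only [Fin.cons_succ]
  rcases MomK.sec_ball hK hc hr t with h | ⟨ρ, hρ, h⟩
  · rw [h]
    simp
  · rw [h]
    exact ball_moment hm i hρ

end Vale.Agent.P254r
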