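import Vale.Agent.P254r.Defs

/-!
P254r, row R2: the square integral of the section volumes of a down-closed convex body.
-/

namespace Vale.Agent.P254r

open MeasureTheory Vale.Agent.P254 Vale.Agent.P254.NS
open scoped ENNReal

/-- [R2] Side.lean: decreasing section volumes -/
theorem side_lo {m : ℕ} {D : Set (Fin (m + 1) → ℝ)} (h : AC D) :
    A D 0 * volume D ≤ 2 * ∫⁻ t, A D t ^ 2 := by
  by_cases hV : volume D = 0
  · rw [hV, mul_zero]
    exact bot_le
  · have hVf : volume D ≠ ∞ := vol_fin h
    have h3 : 2 * ∫⁻ x in Set.Ici 0, A D x * F D x = (∫⁻ t, A D t) ^ 2 :=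
      Lin.int3 (a := A D) (f := F D) (A_meas h) (fun t => rfl) (fun t ht => A_neg h ht)
    rw [A_int h] at h3
    have hF0 : F D 0 ≤ volume D := by
      rw [← A_int h]
      exact setLIntegral_le_lintegral _ _
    have h4 : A D 0 * ∫⁻ x in Set.Ici 0, A D x * F D x ≤ volume D * ∫⁻ t, A D t ^ 2 := by
      calc A D 0 * ∫⁻ x in Set.Ici 0, A D x * F D x
          = ∫⁻ x in Set.Ici 0, A D 0 * (A D x * F D x) :=
            (lintegral_const_mul' _ _ (A_fin h 0)).symm
        _ ≤ ∫⁻ x in Set.Ici 0, volume D * A D x ^ 2 := by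
            refine setLIntegral_mono' measurableSet_Ici fun x hx => ?_
            calc A D 0 * (A D x * F D x) = A D x * (F D x * A D 0) := by ring
              _ ≤ A D x * (F D 0 * A D x) := by
                  have := pn h 0 x le_rfl hx
                  gcongr A D x * ?_
              _ ≤ A D x * (volume D * A D x) := by gcongr
              _ = volume D * A D x ^ 2 := by ring
        _ ≤ ∫⁻ x, volume D * A D x ^ 2 := setLIntegral_le_lintegral _ _
        _ = volume D * ∫⁻ t, A D t ^ 2 := lintegral_const_mul' _ _ hVf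
    have h5 : volume D * (A D 0 * volume D) ≤ volume D * (2 * ∫⁻ t, A D t ^ 2) := by
      calc volume D * (A D 0 * volume D) = A D 0 * volume D ^ 2 := by ring
        _ = 2 * (A D 0 * ∫⁻ x in Set.Ici 0, A D x * F D x) := by
            rw [← h3]
            ring
        _ ≤ 2 * (volume D * ∫⁻ t, A D t ^ 2) := by gcongr
        _ = volume D * (2 * ∫⁻ t, A D t ^ 2) := by ring
    exact (ENNReal.mul_le_mul_iff_right hV hVf).1 h5

/-- [R2] Side.lean -/
theorem side_hi {m : ℕ} {D : Set (Fin (m + 1) → ℝ)} (h : AC D) :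
    ∫⁻ t, A D t ^ 2 ≤ A D 0 * volume D := by
  rw [← A_int h, ← lintegral_const_mul' _ _ (A_fin h 0)]
  refine lintegral_mono fun t => ?_
  change A D t ^ 2 ≤ A D 0 * A D t
  by_cases ht : t < 0
  · rw [A_neg h ht]
    simp
  · rw [sq]
    gcongr
    exact A_anti h le_rfl (not_lt.1 ht)

end Vale.Agent.P254r
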