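import Vale.Agent.P254r.Half
import Vale.Agent.P254r.Side
import Vale.Agent.P254r.Poly
import Vale.Agent.P254r.Jens
import Vale.Agent.P254r.Fub
import Vale.Agent.P254r.Cov
import Vale.Agent.P254r.Num
import Vale.Agent.P254r.MomK
import Vale.Agent.P254.Ext
import Vale.Agent.P254.Simp

/-!
P254: convex bodies of revolution, assembly (helper19).
-/

namespace Vale.Agent.P254r

open MeasureTheory Vale.Agent.P254 Vale.Agent.P254.NS
open scoped ENNReal

namespace Mn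

theorem side_real {m : ℕ} {D : Set (Fin (m + 1) → ℝ)} (h : AC D) {V T S Q a : ℝ}
    (hV : V = (volume D).toReal) (hT : T = (∫⁻ x in D, ENNReal.ofReal (x 0)).toReal)
    (hS : S = (∫⁻ x in D, ENNReal.ofReal (x 0) ^ 2).toReal)
    (hQ : Q = (∫⁻ t, A D t ^ 2).toReal) (ha : a = (A D 0).toReal) :
    2 * T * Q ≤ V ^ 3 ∧ S * V ≤ (2 * ((m : ℝ) + 2) / ((m : ℝ) + 3)) * T ^ 2 ∧
      a * V ≤ 2 * Q ∧ Q ≤ a * V ∧ (V = 0 → T = 0 ∧ S = 0) := by
  have fV : volume D ≠ ∞ := vol_fin h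
  have fT : ∫⁻ x in D, ENNReal.ofReal (x 0) ≠ ∞ := by simpa using mom_fin h 0 1
  have fA : A D 0 ≠ ∞ := NS.A_fin h 0
  have fQ : ∫⁻ t, A D t ^ 2 ≠ ∞ :=
    ne_top_of_le_ne_top (ENNReal.mul_ne_top fA fV) (side_hi h)
  have h1 := ENNReal.toReal_mono (ENNReal.pow_ne_top fV) (lin1_D h)
  have h2 := ENNReal.toReal_mono (ENNReal.mul_ne_top (by simp [ENNReal.mul_eq_top])
    (ENNReal.pow_ne_top fT)) (second h)
  have h3 := ENNReal.toReal_mono (ENNReal.mul_ne_top (by simp) fQ) (side_lo h)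
  have h4 := ENNReal.toReal_mono (ENNReal.mul_ne_top fA fV) (side_hi h)
  have e1 : ((m : ℝ≥0∞) + 3).toReal = (m : ℝ) + 3 := by
    rw [ENNReal.toReal_add (by simp) (by simp)]
    simp
  have e2 : ((m : ℝ≥0∞) + 2).toReal = (m : ℝ) + 2 := by
    rw [ENNReal.toReal_add (by simp) (by simp)]
    simp
  simp only [ENNReal.toReal_mul, ENNReal.toReal_pow, e1, e2, ENNReal.toReal_ofNat] at h1 h2 h3 h4
  rw [← hV, ← hT, ← hQ] at h1
  rw [← hV, ← hT, ← hS] at h2
  rw [← hV, ← hQ, ← ha] at h3 h4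
  refine ⟨h1, ?_, h3, h4, ?_⟩
  · have hm : (0 : ℝ) < (m : ℝ) + 3 := by positivity
    rw [div_mul_eq_mul_div, le_div_iff₀ hm]
    linarith
  · intro h0
    have h5 : volume D = 0 := by
      rw [hV, ENNReal.toReal_eq_zero_iff] at h0
      rcases h0 with h0 | h0
      · exact h0
      · exact absurd h0 fV
    have h6 : volume.restrict D = 0 := Measure.restrict_eq_zero.2 h5
    rw [hT, hS, h6]
    simp

theorem K_meas {m : ℕ} {K : Set (Fin (m + 1) → ℝ)} (hc : IsCompact K) :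
    Measurable fun t => volume (sec K t) := by
  have h1 : MeasurableSet
      ((fun p : ℝ × (Fin m → ℝ) => (Fin.cons p.1 p.2 : Fin (m + 1) → ℝ)) ⁻¹' K) :=
    NS.Sec.cont_cons.measurable hc.measurableSet
  exact measurable_measure_prodMk_left h1

theorem K_int {m : ℕ} {K : Set (Fin (m + 1) → ℝ)} (hc : IsCompact K) :
    ∫⁻ t, volume (sec K t) = volume K := by
  have hK : MeasurableSet K := hc.measurableSet
  have h1 : volume K = ∫⁻ x, K.indicator 1 x := by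
    rw [lintegral_indicator_one hK]
  rw [h1, NS.Sec.lintegral_fin_succ (measurable_one.indicator hK)]
  refine lintegral_congr fun t => ?_
  have h2 : MeasurableSet (sec K t) := (NS.Sec.cont_cons' t).measurable hK
  have h3 : (fun v : Fin m → ℝ => K.indicator (1 : (Fin (m + 1) → ℝ) → ℝ≥0∞) (Fin.cons t v)) =
      (sec K t).indicator 1 := by
    funext v
    rfl
  rw [h3, lintegral_indicator_one h2]

theorem exists_top {m : ℕ} {K : Set (Fin (m + 1) → ℝ)} (hc : IsCompact K) (hn : K.Nonempty) :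
    ∃ z ∈ K, ∀ x ∈ K, ∑ i : Fin m, x i.succ ^ 2 ≤ ∑ i : Fin m, z i.succ ^ 2 := by
  have hcont : Continuous fun x : Fin (m + 1) → ℝ => ∑ i : Fin m, x i.succ ^ 2 := by fun_prop
  obtain ⟨z, hz, h⟩ := hc.exists_isMaxOn hn hcont.continuousOn
  exact ⟨z, hz, fun x hx => h hx⟩

/-- first moment about `t0` -/
theorem mom1 {m : ℕ} {K : Set (Fin (m + 1) → ℝ)} (hc : IsCompact K) (hr : Revol K)
    {t0 T1 T2 : ℝ} (hT1 : T1 = (∫⁻ x in half K t0 1, ENNReal.ofReal (x 0)).toReal)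
    (hT2 : T2 = (∫⁻ x in half K t0 (-1), ENNReal.ofReal (x 0)).toReal)
    (hm1 : MeasurableSet (half K t0 1)) (hm2 : MeasurableSet (half K t0 (-1)))
    (f1 : ∫⁻ x in half K t0 1, ENNReal.ofReal (x 0) ≠ ∞)
    (f2 : ∫⁻ x in half K t0 (-1), ENNReal.ofReal (x 0) ≠ ∞) :
    ∫ x in K, (x 0 - t0) = 2 ^ m * (T1 - T2) := by
  have hcont : Continuous fun x : Fin (m + 1) → ℝ => x 0 - t0 := by fun_prop
  have hint : Integrable (fun x : Fin (m + 1) → ℝ => x 0 - t0) (volume.restrict K) :=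
    hcont.continuousOn.integrableOn_compact hc
  rw [integral_eq_lintegral_pos_part_sub_lintegral_neg_part hint]
  have g1 := int_half hc hr t0 (g := fun s => ENNReal.ofReal (s - t0)) (by fun_prop)
  have g2 := int_half hc hr t0 (g := fun s => ENNReal.ofReal (-(s - t0))) (by fun_prop)
  rw [g1, g2]
  have z1 : ∫⁻ x in half K t0 (-1), ENNReal.ofReal (t0 - x 0 - t0) = 0 := by
    rw [setLIntegral_congr_fun (g := fun _ => 0) hm2]
    · simp
    · intro x hx
      have := hx.1 0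
      exact ENNReal.ofReal_of_nonpos (by linarith)
  have z2 : ∫⁻ x in half K t0 1, ENNReal.ofReal (-(t0 + x 0 - t0)) = 0 := by
    rw [setLIntegral_congr_fun (g := fun _ => 0) hm1]
    · simp
    · intro x hx
      have := hx.1 0
      exact ENNReal.ofReal_of_nonpos (by linarith)
  rw [z1, z2]
  have e1 : ∫⁻ x in half K t0 1, ENNReal.ofReal (t0 + x 0 - t0) =
      ∫⁻ x in half K t0 1, ENNReal.ofReal (x 0) := by
    refine lintegral_congr fun x => ?_
    congr 1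
    ring
  have e2 : ∫⁻ x in half K t0 (-1), ENNReal.ofReal (-(t0 - x 0 - t0)) =
      ∫⁻ x in half K t0 (-1), ENNReal.ofReal (x 0) := by
    refine lintegral_congr fun x => ?_
    congr 1
    ring
  rw [e1, e2, add_zero, zero_add, ENNReal.toReal_mul, ENNReal.toReal_mul, ← hT1, ← hT2]
  simp
  ring

/-- second moment about `t0` -/
theorem mom2 {m : ℕ} {K : Set (Fin (m + 1) → ℝ)} (hc : IsCompact K) (hr : Revol K)
    {t0 S1 S2 : ℝ} (hS1 : S1 = (∫⁻ x in half K t0 1, ENNReal.ofReal (x 0) ^ 2).toReal)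
    (hS2 : S2 = (∫⁻ x in half K t0 (-1), ENNReal.ofReal (x 0) ^ 2).toReal)
    (hm1 : MeasurableSet (half K t0 1)) (hm2 : MeasurableSet (half K t0 (-1)))
    (f1 : ∫⁻ x in half K t0 1, ENNReal.ofReal (x 0) ^ 2 ≠ ∞)
    (f2 : ∫⁻ x in half K t0 (-1), ENNReal.ofReal (x 0) ^ 2 ≠ ∞) :
    ∫ x in K, (x 0 - t0) ^ 2 = 2 ^ m * (S1 + S2) := by
  have hcont : Continuous fun x : Fin (m + 1) → ℝ => (x 0 - t0) ^ 2 := by fun_prop
  rw [integral_eq_lintegral_of_nonneg_ae (Filter.Eventually.of_forall fun x => sq_nonneg _)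
    hcont.aestronglyMeasurable]
  have g1 := int_half hc hr t0 (g := fun s => ENNReal.ofReal ((s - t0) ^ 2)) (by fun_prop)
  rw [g1]
  have e1 : ∫⁻ x in half K t0 1, ENNReal.ofReal ((t0 + x 0 - t0) ^ 2) =
      ∫⁻ x in half K t0 1, ENNReal.ofReal (x 0) ^ 2 := by
    refine setLIntegral_congr_fun hm1 fun x hx => ?_
    rw [← ENNReal.ofReal_pow (hx.1 0)]
    congr 1
    ring
  have e2 : ∫⁻ x in half K t0 (-1), ENNReal.ofReal ((t0 - x 0 - t0) ^ 2) =
      ∫⁻ x in half K t0 (-1), ENNReal.ofReal (x 0) ^ 2 := by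
    refine setLIntegral_congr_fun hm2 fun x hx => ?_
    rw [← ENNReal.ofReal_pow (hx.1 0)]
    congr 1
    ring
  rw [e1, e2, ENNReal.toReal_mul, ENNReal.toReal_add f1 f2, ← hS1, ← hS2]
  simp

/-- the variance in the direction of the axis -/
theorem var {m : ℕ} {K : Set (Fin (m + 1) → ℝ)} (hc : IsCompact K)
    (hV : 0 < volume.real K) (t0 : ℝ) :
    (∫ x in K, (x 0 - centroid K 0) ^ 2) / volume.real K =
      (∫ x in K, (x 0 - t0) ^ 2) / volume.real K -
        ((∫ x in K, (x 0 - t0)) / volume.real K) ^ 2 := by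
  set V := volume.real K with hVd
  have i0 : IntegrableOn (fun x : Fin (m + 1) → ℝ => x 0) K :=
    (continuous_apply 0).continuousOn.integrableOn_compact hc
  have ic : ∀ c : ℝ, IntegrableOn (fun _ : Fin (m + 1) → ℝ => c) K := fun c =>
    continuous_const.continuousOn.integrableOn_compact hc
  have i1 : IntegrableOn (fun x : Fin (m + 1) → ℝ => x 0 - t0) K := i0.sub (ic t0)
  have i2 : IntegrableOn (fun x : Fin (m + 1) → ℝ => (x 0 - t0) ^ 2) K :=
    (show Continuous fun x : Fin (m + 1) → ℝ => (x 0 - t0) ^ 2 by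
      fun_prop).continuousOn.integrableOn_compact hc
  have hM : ∫ x in K, (x 0 - t0) = (∫ x in K, x 0) - t0 * V := by
    rw [integral_sub i0 (ic t0)]
    simp [hVd, mul_comm]
  have hcen : centroid K 0 = t0 + (∫ x in K, (x 0 - t0)) / V := by
    rw [hM, centroid, ← hVd]
    field_simp
    ring
  set M := ∫ x in K, (x 0 - t0) with hMd
  have h1 : ∀ x : Fin (m + 1) → ℝ, (x 0 - centroid K 0) ^ 2 =
      (x 0 - t0) ^ 2 - 2 * (M / V) * (x 0 - t0) + (M / V) ^ 2 := by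
    intro x
    rw [hcen]
    ring
  have h2 : ∫ x in K, (x 0 - centroid K 0) ^ 2 =
      (∫ x in K, (x 0 - t0) ^ 2) - 2 * (M / V) * M + (M / V) ^ 2 * V := by
    simp_rw [h1]
    have a1 : ∫ x in K, ((x 0 - t0) ^ 2 - 2 * (M / V) * (x 0 - t0)) =
        (∫ x in K, (x 0 - t0) ^ 2) - ∫ x in K, 2 * (M / V) * (x 0 - t0) :=
      integral_sub i2 (i1.const_mul _)
    have a2 : ∫ x in K, ((x 0 - t0) ^ 2 - 2 * (M / V) * (x 0 - t0) + (M / V) ^ 2) =
        (∫ x in K, ((x 0 - t0) ^ 2 - 2 * (M / V) * (x 0 - t0))) + ∫ x in K, (M / V) ^ 2 :=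
      integral_add (i2.sub (i1.const_mul _)) (ic _)
    have a3 : ∫ x in K, 2 * (M / V) * (x 0 - t0) = 2 * (M / V) * M :=
      integral_const_mul _ _
    have a4 : ∫ _x in K, (M / V) ^ 2 = (M / V) ^ 2 * V := by
      rw [setIntegral_const, smul_eq_mul, mul_comm]
    rw [a2, a1, a3, a4]
  rw [h2]
  field_simp
  ring

theorem vol_zero_of {m : ℕ} {D : Set (Fin (m + 1) → ℝ)} (h : AC D) (h0 : A D 0 = 0) :
    volume D = 0 := by
  rw [← A_int h]
  have : ∀ t, A D t = 0 := by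
    intro t
    rcases lt_or_ge t 0 with ht | ht
    · exact A_neg h ht
    · exact le_antisymm (h0 ▸ A_anti h le_rfl ht) zero_le
  simp [this]

theorem sec_zero {m : ℕ} (K : Set (Fin (m + 1) → ℝ)) (t0 : ℝ) :
    A (half K t0 1) 0 = A (half K t0 (-1)) 0 := by
  unfold A
  congr 1
  ext y
  simp [sec, half]

/-- the real arithmetic of the last step -/
theorem arith {m : ℕ} {VK V S W T Q I D c : ℝ} (hm : 2 ≤ m) (hV : 0 < V)
    (hVK : VK = 2 ^ m * V) (hvar : 0 ≤ S / V - (T / V) ^ 2)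
    (hW0 : 0 ≤ W) (hW : W ≤ (1 / 12 * I / VK) ^ m)
    (hI : I ^ m ≤ VK ^ (m - 2) * (4 ^ m * Q) ^ 2)
    (hD : D = (S / V - (T / V) ^ 2) * W)
    (h2 : (S * V - T ^ 2) * Q ^ 2 ≤ c * V ^ 6) : D / VK ^ 2 ≤ c / 12 ^ m := by
  have hVK0 : 0 < VK := by rw [hVK]; positivity
  have e1 : (1 / 12 * I / VK) ^ m = I ^ m / (12 ^ m * VK ^ m) := by
    rw [div_pow, mul_pow, one_div, inv_pow]
    field_simp
  have e2 : VK ^ m = VK ^ (m - 2) * VK ^ 2 := by
    rw [← pow_add]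
    congr 1
    omega
  have h3 : W ≤ (4 ^ m * Q) ^ 2 / (12 ^ m * VK ^ 2) := by
    refine hW.trans ?_
    rw [e1, e2, div_le_div_iff₀ (by positivity) (by positivity)]
    calc I ^ m * (12 ^ m * VK ^ 2) ≤ (VK ^ (m - 2) * (4 ^ m * Q) ^ 2) * (12 ^ m * VK ^ 2) := by
          gcongr
      _ = (4 ^ m * Q) ^ 2 * (12 ^ m * (VK ^ (m - 2) * VK ^ 2)) := by ring
  have h4 : D ≤ (S / V - (T / V) ^ 2) * ((4 ^ m * Q) ^ 2 / (12 ^ m * VK ^ 2)) := by
    rw [hD]
    exact mul_le_mul_of_nonneg_left h3 hvar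
  have h5 : (S / V - (T / V) ^ 2) * Q ^ 2 ≤ c * V ^ 4 := by
    have e3 : (S / V - (T / V) ^ 2) = (S * V - T ^ 2) / V ^ 2 := by
      field_simp
    rw [e3, div_mul_eq_mul_div, div_le_iff₀ (by positivity)]
    calc (S * V - T ^ 2) * Q ^ 2 ≤ c * V ^ 6 := h2
      _ = c * V ^ 4 * V ^ 2 := by ring
  rw [div_le_div_iff₀ (by positivity) (by positivity)]
  have h6 : (4 : ℝ) ^ m * 4 ^ m = 2 ^ m * 2 ^ m * (2 ^ m * 2 ^ m) := by
    rw [← mul_pow, ← mul_pow, ← mul_pow]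
    norm_num
  calc D * 12 ^ m ≤ ((S / V - (T / V) ^ 2) * ((4 ^ m * Q) ^ 2 / (12 ^ m * VK ^ 2))) * 12 ^ m := by
        gcongr
    _ = ((S / V - (T / V) ^ 2) * Q ^ 2) * (4 ^ m * 4 ^ m / VK ^ 2) := by
        field_simp
    _ ≤ (c * V ^ 4) * (4 ^ m * 4 ^ m / VK ^ 2) := by gcongr
    _ = c * VK ^ 2 := by
        rw [h6, hVK]
        field_simp

theorem kappa {m : ℕ} (hm : 2 ≤ m) :
    8 / 5 ≤ 2 * ((m : ℝ) + 2) / ((m : ℝ) + 3) ∧ 2 * ((m : ℝ) + 2) / ((m : ℝ) + 3) ≤ 2 := by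
  have h : (2 : ℝ) ≤ m := by exact_mod_cast hm
  constructor
  · rw [div_le_div_iff₀ (by norm_num) (by positivity)]
    linarith
  · rw [div_le_iff₀ (by positivity)]
    linarith

theorem det_lt {m : ℕ} (hm : 2 ≤ m) {K : Set (Fin (m + 1) → ℝ)} (hK : Convex ℝ K)
    (hc : IsCompact K) (h0 : (interior K).Nonempty) (hr : Revol K) :
    0 ≤ (cov K).det / volume.real K ^ 2 ∧ (cov K).det / volume.real K ^ 2 ≤
      (2 * ((m : ℝ) + 2) / ((m : ℝ) + 3) - 24 / 25) / 4 / 12 ^ m := by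
  obtain ⟨z, hz, hmax⟩ := exists_top hc (h0.mono interior_subset)
  have hD1 : AC (half K (z 0) 1) := half_ac hK hc hr hz hmax (Or.inl rfl)
  have hD2 : AC (half K (z 0) (-1)) := half_ac hK hc hr hz hmax (Or.inr rfl)
  set t0 := z 0 with ht0
  obtain ⟨a1, a2, a3, a4, a5⟩ := side_real hD1 rfl rfl rfl rfl rfl
  obtain ⟨b1, b2, b3, b4, b5⟩ := side_real hD2 rfl rfl rfl rfl rfl
  rw [← sec_zero] at b3 b4
  have fV1 : volume (half K t0 1) ≠ ∞ := vol_fin hD1
  have fV2 : volume (half K t0 (-1)) ≠ ∞ := vol_fin hD2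
  have fQ1 : ∫⁻ t, A (half K t0 1) t ^ 2 ≠ ∞ :=
    ne_top_of_le_ne_top (ENNReal.mul_ne_top (NS.A_fin hD1 0) fV1) (side_hi hD1)
  have fQ2 : ∫⁻ t, A (half K t0 (-1)) t ^ 2 ≠ ∞ :=
    ne_top_of_le_ne_top (ENNReal.mul_ne_top (NS.A_fin hD2 0) fV2) (side_hi hD2)
  have mD1 := hD1.compact.measurableSet
  have mD2 := hD2.compact.measurableSet
  have c1 := mom1 hc hr (t0 := t0) rfl rfl mD1 mD2 (by simpa using mom_fin hD1 0 1)
    (by simpa using mom_fin hD2 0 1)
  have c2 := mom2 hc hr (t0 := t0) rfl rfl mD1 mD2 (mom_fin hD1 0 2) (mom_fin hD2 0 2)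
  have hQK : (∫⁻ t, volume (sec K t) ^ 2).toReal =
      4 ^ m * ((∫⁻ t, A (half K t0 1) t ^ 2).toReal +
        (∫⁻ t, A (half K t0 (-1)) t ^ 2).toReal) := by
    rw [sec_half hc hr t0, ENNReal.toReal_mul, ENNReal.toReal_add fQ1 fQ2]
    simp
  have hVKe : volume K = 2 ^ m * (volume (half K t0 1) + volume (half K t0 (-1))) := by
    have := int_half hc hr t0 (g := fun _ => 1) measurable_const
    simpa using this
  have hVK : volume.real K = 2 ^ m * ((volume (half K t0 1)).toReal +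
      (volume (half K t0 (-1))).toReal) := by
    rw [Measure.real, hVKe, ENNReal.toReal_mul, ENNReal.toReal_add fV1 fV2]
    simp
  have hVK0 : 0 < volume.real K := lt_of_le_of_ne ENNReal.toReal_nonneg
    (vol_ne_of_interior hc h0).symm
  have hV0 : 0 < (volume (half K t0 1)).toReal + (volume (half K t0 (-1))).toReal := by
    rw [hVK] at hVK0
    exact pos_of_mul_pos_right hVK0 (by positivity)
  have ha : 0 < (A (half K t0 1) 0).toReal := by
    refine lt_of_le_of_ne ENNReal.toReal_nonneg fun h => ?_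
    have h1 : A (half K t0 1) 0 = 0 := by
      rcases (ENNReal.toReal_eq_zero_iff _).1 h.symm with h1 | h1
      · exact h1
      · exact absurd h1 (NS.A_fin hD1 0)
    have h2 : A (half K t0 (-1)) 0 = 0 := by rw [← sec_zero, h1]
    rw [vol_zero_of hD1 h1, vol_zero_of hD2 h2] at hV0
    simp at hV0
  obtain ⟨k1, k2⟩ := kappa hm
  have hside := two_side k1 k2 ha ENNReal.toReal_nonneg ENNReal.toReal_nonneg
    ENNReal.toReal_nonneg ENNReal.toReal_nonneg a5 b5 a1 b1 a2 b2 a3 a4 b3 b4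
  -- the orthogonal moments
  have hfinK : volume K ≠ ∞ := hc.measure_lt_top.ne
  have hQKfin : ∫⁻ t, volume (sec K t) ^ 2 ≠ ∞ := by
    rw [sec_half hc hr t0]
    exact ENNReal.mul_ne_top (by simp) (ENNReal.add_ne_top.2 ⟨fQ1, fQ2⟩)
  have hj := jens hm (K_meas hc)
  rw [K_int hc] at hj
  have hRfin : volume K ^ (m - 2) * (∫⁻ t, volume (sec K t) ^ 2) ^ 2 ≠ ∞ :=
    ENNReal.mul_ne_top (ENNReal.pow_ne_top hfinK) (ENNReal.pow_ne_top hQKfin)
  have hIfin : ∫⁻ t, volume (sec K t) ^ (1 + 2 / (m : ℝ)) ≠ ∞ := by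
    intro h
    rw [h, ENNReal.top_pow (by omega)] at hj
    exact hRfin (top_le_iff.1 hj)
  have hI : (∫⁻ t, volume (sec K t) ^ (1 + 2 / (m : ℝ))).toReal ^ m ≤
      volume.real K ^ (m - 2) * (4 ^ m * ((∫⁻ t, A (half K t0 1) t ^ 2).toReal +
        (∫⁻ t, A (half K t0 (-1)) t ^ 2).toReal)) ^ 2 := by
    have := ENNReal.toReal_mono hRfin hj
    rwa [ENNReal.toReal_mul, ENNReal.toReal_pow, ENNReal.toReal_pow, ENNReal.toReal_pow,
      hQK] at this
  have hWi : ∀ i : Fin m, (∫ x in K, x i.succ ^ 2) / volume.real K ≤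
      1 / 12 * (∫⁻ t, volume (sec K t) ^ (1 + 2 / (m : ℝ))).toReal / volume.real K := by
    intro i
    refine div_le_div_of_nonneg_right ?_ hVK0.le
    have hcont : Continuous fun x : Fin (m + 1) → ℝ => x i.succ ^ 2 := by fun_prop
    rw [integral_eq_lintegral_of_nonneg_ae (Filter.Eventually.of_forall fun x => sq_nonneg _)
      hcont.aestronglyMeasurable]
    have h1 := ENNReal.toReal_mono (ENNReal.mul_ne_top (by simp) hIfin) (mom_le hm hK hc hr i)
    rwa [ENNReal.toReal_mul, ENNReal.toReal_ofReal (by norm_num)] at h1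
  have hW0 : ∀ i : Fin m, 0 ≤ (∫ x in K, x i.succ ^ 2) / volume.real K := fun i =>
    div_nonneg (integral_nonneg fun x => sq_nonneg _) hVK0.le
  have hW : ∏ i : Fin m, ((∫ x in K, x i.succ ^ 2) / volume.real K) ≤
      (1 / 12 * (∫⁻ t, volume (sec K t) ^ (1 + 2 / (m : ℝ))).toReal / volume.real K) ^ m := by
    calc ∏ i : Fin m, ((∫ x in K, x i.succ ^ 2) / volume.real K) ≤
        ∏ _i : Fin m, (1 / 12 * (∫⁻ t, volume (sec K t) ^ (1 + 2 / (m : ℝ))).toReal /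
          volume.real K) := Finset.prod_le_prod (fun i _ => hW0 i) (fun i _ => hWi i)
      _ = _ := by rw [Finset.prod_const, Finset.card_univ, Fintype.card_fin]
  have hW00 : 0 ≤ ∏ i : Fin m, ((∫ x in K, x i.succ ^ 2) / volume.real K) :=
    Finset.prod_nonneg fun i _ => hW0 i
  have hvar := var hc hVK0 t0
  have hvar0 : 0 ≤ (∫ x in K, (x 0 - centroid K 0) ^ 2) / volume.real K :=
    div_nonneg (integral_nonneg fun x => sq_nonneg _) hVK0.le
  have hcov := cov_rev hc hr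
  rw [c1, c2] at hvar
  set V := (volume (half K t0 1)).toReal + (volume (half K t0 (-1))).toReal with hVdef
  set S1 := (∫⁻ x in half K t0 1, ENNReal.ofReal (x 0) ^ 2).toReal
  set S2 := (∫⁻ x in half K t0 (-1), ENNReal.ofReal (x 0) ^ 2).toReal
  set T1 := (∫⁻ x in half K t0 1, ENNReal.ofReal (x 0)).toReal
  set T2 := (∫⁻ x in half K t0 (-1), ENNReal.ofReal (x 0)).toReal
  have hvar2 : (∫ x in K, (x 0 - centroid K 0) ^ 2) / volume.real K =
      (S1 + S2) / V - ((T1 - T2) / V) ^ 2 := by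
    rw [hvar, hVK]
    have h2m : (2 : ℝ) ^ m ≠ 0 := by positivity
    rw [mul_div_mul_left _ _ h2m, mul_div_mul_left _ _ h2m]
  refine ⟨?_, ?_⟩
  · rw [hcov]
    exact div_nonneg (mul_nonneg hvar0 hW00) (by positivity)
  · rw [hvar2] at hcov hvar0
    exact arith hm hV0 hVK hvar0 hW00 hW hI hcov hside

end Mn

/-- the explicit bound -/
theorem quant (m : ℕ) (hm : 2 ≤ m) {K : Set (Fin (m + 1) → ℝ)} (hK : Convex ℝ K)
    (hc : IsCompact K) (h0 : (interior K).Nonempty) (hr : Revol K)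
    (T : (Fin (m + 1) → ℝ) ≃ᵃ[ℝ] (Fin (m + 1) → ℝ)) :
    isoConst (T '' K) ^ (2 * (m + 1)) ≤
      (2 * ((m : ℝ) + 2) / ((m : ℝ) + 3) - 24 / 25) / (4 * 12 ^ m) := by
  obtain ⟨h1, h2⟩ := Mn.det_lt hm hK hc h0 hr
  rw [isoConst_affine hc (vol_ne_of_interior hc h0) T, isoConst]
  have h3 : (((cov K).det / volume.real K ^ 2) ^ (1 / (2 * ((m + 1 : ℕ) : ℝ)))) ^ (2 * (m + 1)) =
      (cov K).det / volume.real K ^ 2 := by
    rw [← Real.rpow_natCast, ← Real.rpow_mul h1]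
    have e1 : 1 / (2 * ((m + 1 : ℕ) : ℝ)) * ((2 * (m + 1) : ℕ) : ℝ) = 1 := by
      push_cast
      field_simp
    rw [e1, Real.rpow_one]
  rw [h3]
  refine h2.trans (le_of_eq ?_)
  rw [div_div]

/-- convex bodies of revolution -/
theorem main (m : ℕ) (hm : 2 ≤ m) {K : Set (Fin (m + 1) → ℝ)} (hK : Convex ℝ K)
    (hc : IsCompact K) (h0 : (interior K).Nonempty) (hr : Revol K)
    (T : (Fin (m + 1) → ℝ) ≃ᵃ[ℝ] (Fin (m + 1) → ℝ)) {S : Set (Fin (m + 1) → ℝ)}
    (hS : IsSimplex S) : isoConst (T '' K) < isoConst S := by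
  refine ext_affine hc h0 ?_ ?_ T hS
  · rw [simplex_vol]
    positivity
  · obtain ⟨h1, h2⟩ := Mn.det_lt hm hK hc h0 hr
    rw [isoConst, isoConst, simplex_cov, simplex_vol]
    refine Real.rpow_lt_rpow h1 (lt_of_le_of_lt h2 ?_) (by positivity)
    have h3 := numr (m + 1) (by omega)
    have hf : (0 : ℝ) < ((m + 1).factorial : ℝ) := by exact_mod_cast (m + 1).factorial_pos
    have e1 : (((m + 1 : ℕ) : ℝ) + 1) = (m : ℝ) + 2 := by push_cast; ring
    have e2 : (((m + 1 : ℕ) : ℝ) + 2) = (m : ℝ) + 3 := by push_cast; ring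
    rw [e1, e2] at h3 ⊢
    rw [one_div_pow, div_div_eq_mul_div, div_one, one_div, inv_mul_eq_div,
      div_lt_div_iff₀ (by positivity) (by positivity)]
    have e3 : m + 1 - 1 = m := by omega
    rw [e3] at h3
    linarith

end Vale.Agent.P254r
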