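import Vale.Agent.P254.NS

/-!
P254: convex bodies of revolution.  Definitions.
-/

namespace Vale.Agent.P254r

open MeasureTheory Vale.Agent.P254 Vale.Agent.P254.NS
open scoped ENNReal

/-- `K` is invariant under all rotations about the axis of the coordinate `0` -/
def Revol {m : ℕ} (K : Set (Fin (m + 1) → ℝ)) : Prop :=
  ∀ x ∈ K, ∀ y : Fin (m + 1) → ℝ, y 0 = x 0 →
    ∑ i : Fin m, y i.succ ^ 2 = ∑ i : Fin m, x i.succ ^ 2 → y ∈ K

/-- the part of `K` above (`σ = 1`) or below (`σ = -1`) the height `t0`, nonnegative coordinates -/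
def half {m : ℕ} (K : Set (Fin (m + 1) → ℝ)) (t0 σ : ℝ) : Set (Fin (m + 1) → ℝ) :=
  {x | (∀ i, 0 ≤ x i) ∧ (Fin.cons (t0 + σ * x 0) (Fin.tail x) : Fin (m + 1) → ℝ) ∈ K}

/-- the Euclidean ball of radius `ρ` -/
def eball (m : ℕ) (ρ : ℝ) : Set (Fin m → ℝ) := {y | ∑ i, y i ^ 2 ≤ ρ ^ 2}

end Vale.Agent.P254r
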