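import Vale.Agent.P254r.Defs

/-! P254r [R1]: bodies of revolution, their balls and halves. -/

namespace Vale.Agent.P254r

open MeasureTheory Vale.Agent.P254 Vale.Agent.P254.NS
open scoped ENNReal

namespace Half

theorem mem_smul {m : ℕ} {K : Set (Fin (m + 1) → ℝ)} (hK : Convex ℝ K) (hr : Revol K)
    {x : Fin (m + 1) → ℝ} (hx : x ∈ K) (w : Fin m → ℝ)
    (hw : ∑ i, w i ^ 2 = ∑ i : Fin m, x i.succ ^ 2) {μ : ℝ} (h0 : 0 ≤ μ) (h1 : μ ≤ 1)
    {y : Fin (m + 1) → ℝ} (hy0 : y 0 = x 0) (hy : ∀ i : Fin m, y i.succ = μ * w i) : y ∈ K := by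
  have hp1 : (Fin.cons (x 0) w : Fin (m + 1) → ℝ) ∈ K := by
    apply hr x hx
    · simp
    · simpa using hw
  have hp2 : (Fin.cons (x 0) (fun i => - w i) : Fin (m + 1) → ℝ) ∈ K := by
    apply hr x hx
    · simp
    · simpa using hw
  have h := hK hp1 hp2 (a := (1 + μ) / 2) (b := (1 - μ) / 2) (by linarith) (by linarith)
    (by ring)
  convert h using 1
  funext j
  refine Fin.cases ?_ (fun i => ?_) j
  · simp [hy0]
    ring
  · simp [hy i]
    ring

end Half

open Half

/-- [R1] Half.lean: balls -/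
theorem ball_down {m : ℕ} {K : Set (Fin (m + 1) → ℝ)} (hK : Convex ℝ K) (hr : Revol K)
    {x y : Fin (m + 1) → ℝ} (hx : x ∈ K) (h0 : y 0 = x 0)
    (h : ∑ i : Fin m, y i.succ ^ 2 ≤ ∑ i : Fin m, x i.succ ^ 2) : y ∈ K := by
  have hs0 : 0 ≤ ∑ i : Fin m, y i.succ ^ 2 := Finset.sum_nonneg fun i _ => sq_nonneg _
  rcases hs0.eq_or_lt with hs | hs
  · refine mem_smul hK hr hx (fun i => x i.succ) rfl (μ := 0) le_rfl zero_le_one h0 ?_
    intro i
    have h1 := (Finset.sum_eq_zero_iff_of_nonneg (fun i _ => sq_nonneg (y (Fin.succ i)))).mp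
      hs.symm i (Finset.mem_univ i)
    rw [zero_mul]
    exact pow_eq_zero_iff (two_ne_zero) |>.mp h1
  · have hr2 : 0 < ∑ i : Fin m, x i.succ ^ 2 := lt_of_lt_of_le hs h
    set s2 := ∑ i : Fin m, y i.succ ^ 2 with hs2
    set r2 := ∑ i : Fin m, x i.succ ^ 2 with hr2'
    set μ : ℝ := Real.sqrt (s2 / r2) with hμ
    have hq : 0 < s2 / r2 := div_pos hs hr2
    have hμpos : 0 < μ := Real.sqrt_pos.mpr hq
    have hμ1 : μ ≤ 1 := by
      rw [hμ]
      exact Real.sqrt_le_one.mpr ((div_le_one hr2).mpr h)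
    have hμsq : μ ^ 2 = s2 / r2 := Real.sq_sqrt hq.le
    refine mem_smul hK hr hx (fun i => μ⁻¹ * y i.succ) ?_ hμpos.le hμ1 h0 ?_
    · have h1 : ∑ i : Fin m, (μ⁻¹ * y i.succ) ^ 2 = (μ ^ 2)⁻¹ * s2 := by
        rw [hs2, Finset.mul_sum]
        refine Finset.sum_congr rfl fun i _ => ?_
        rw [mul_pow, inv_pow]
      rw [h1, hμsq, ← hr2']
      field_simp
    · intro i
      rw [← mul_assoc, mul_inv_cancel₀ hμpos.ne', one_mul]

/-- [R1] Half.lean -/
theorem half_ac {m : ℕ} {K : Set (Fin (m + 1) → ℝ)} (hK : Convex ℝ K) (hc : IsCompact K)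
    (hr : Revol K) {z : Fin (m + 1) → ℝ} (hz : z ∈ K)
    (hmax : ∀ x ∈ K, ∑ i : Fin m, x i.succ ^ 2 ≤ ∑ i : Fin m, z i.succ ^ 2)
    {σ : ℝ} (hσ : σ = 1 ∨ σ = -1) : AC (half K (z 0) σ) := by
  have hσ2 : σ * σ = 1 := by
    rcases hσ with rfl | rfl <;> norm_num
  refine ⟨?_, ?_, ?_, ?_⟩
  · -- compactness
    let ψ : (Fin (m + 1) → ℝ) → (Fin (m + 1) → ℝ) :=
      fun u => Fin.cons (σ * (u 0 - z 0)) (Fin.tail u)
    have hψ : Continuous ψ := by
      refine continuous_pi fun j => ?_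
      refine Fin.cases ?_ (fun i => ?_) j
      · simp only [ψ, Fin.cons_zero]
        fun_prop
      · simp only [ψ, Fin.cons_succ, Fin.tail]
        fun_prop
    have himg : half K (z 0) σ = ψ '' (K ∩ {u | ∀ i, 0 ≤ ψ u i}) := by
      ext x
      constructor
      · rintro ⟨h1, h2⟩
        have hx : ψ (Fin.cons (z 0 + σ * x 0) (Fin.tail x)) = x := by
          funext j
          refine Fin.cases ?_ (fun i => ?_) j
          · simp only [ψ, Fin.cons_zero]
            rw [add_sub_cancel_left, ← mul_assoc, hσ2, one_mul]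
          · simp [ψ, Fin.tail]
        refine ⟨_, ⟨h2, ?_⟩, hx⟩
        intro i
        rw [hx]
        exact h1 i
      · rintro ⟨u, ⟨hu, hu2⟩, rfl⟩
        refine ⟨hu2, ?_⟩
        have hx : (Fin.cons (z 0 + σ * ψ u 0) (Fin.tail (ψ u)) : Fin (m + 1) → ℝ) = u := by
          funext j
          refine Fin.cases ?_ (fun i => ?_) j
          · simp only [ψ, Fin.cons_zero]
            rw [← mul_assoc, hσ2, one_mul]
            ring
          · simp [ψ, Fin.tail]
        rw [hx]
        exact hu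
    rw [himg]
    refine (hc.inter_right ?_).image hψ
    have h3 : {u | ∀ i, 0 ≤ ψ u i} = ⋂ i, {u | 0 ≤ ψ u i} := by
      ext u
      simp
    rw [h3]
    exact isClosed_iInter fun i =>
      isClosed_le continuous_const ((continuous_apply i).comp hψ)
  · -- convexity
    rintro x ⟨hx1, hx2⟩ y ⟨hy1, hy2⟩ a b ha hb hab
    refine ⟨fun i => ?_, ?_⟩
    · have h1 : (a • x + b • y) i = a * x i + b * y i := rfl
      rw [h1]
      exact add_nonneg (mul_nonneg ha (hx1 i)) (mul_nonneg hb (hy1 i))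
    · have h := hK hx2 hy2 ha hb hab
      have e : (Fin.cons (z 0 + σ * (a • x + b • y) 0) (Fin.tail (a • x + b • y)) :
          Fin (m + 1) → ℝ) = a • (Fin.cons (z 0 + σ * x 0) (Fin.tail x) : Fin (m + 1) → ℝ) +
            b • (Fin.cons (z 0 + σ * y 0) (Fin.tail y) : Fin (m + 1) → ℝ) := by
        funext j
        refine Fin.cases ?_ (fun i => ?_) j
        · simp only [Fin.cons_zero, Pi.add_apply, Pi.smul_apply, smul_eq_mul]
          have hb' : b = 1 - a := by linarith
          rw [hb']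
          ring
        · simp [Fin.tail]
      rw [e]
      exact h
  · rintro x ⟨hx, _⟩ i
    exact hx i
  · -- down-closed
    rintro x ⟨hx1, hx2⟩ y hy0 hyx
    refine ⟨hy0, ?_⟩
    -- the point at the height of `z` with the same distance from the axis
    have hq : (Fin.cons (z 0) (Fin.tail x) : Fin (m + 1) → ℝ) ∈ K := by
      refine ball_down hK hr hz (by simp) ?_
      have := hmax _ hx2
      simpa [Fin.tail] using this
    obtain ⟨t, ht0, ht1, ht⟩ : ∃ t : ℝ, 0 ≤ t ∧ t ≤ 1 ∧ y 0 = t * x 0 := by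
      rcases (hx1 0).eq_or_lt with h | h
      · refine ⟨1, zero_le_one, le_rfl, ?_⟩
        have h1 := hy0 0
        have h2 := hyx 0
        rw [← h] at h2
        rw [← h]
        linarith
      · refine ⟨y 0 / x 0, div_nonneg (hy0 0) h.le, (div_le_one h).mpr (hyx 0), ?_⟩
        field_simp
    have hp : (Fin.cons (z 0 + σ * y 0) (Fin.tail x) : Fin (m + 1) → ℝ) ∈ K := by
      have h := hK hq hx2 (a := 1 - t) (b := t) (by linarith) ht0 (by ring)
      have e : (Fin.cons (z 0 + σ * y 0) (Fin.tail x) : Fin (m + 1) → ℝ) =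
          (1 - t) • (Fin.cons (z 0) (Fin.tail x) : Fin (m + 1) → ℝ) +
            t • (Fin.cons (z 0 + σ * x 0) (Fin.tail x) : Fin (m + 1) → ℝ) := by
        funext j
        refine Fin.cases ?_ (fun i => ?_) j
        · simp only [Fin.cons_zero, Pi.add_apply, Pi.smul_apply, smul_eq_mul]
          rw [ht]
          ring
        · simp only [Fin.cons_succ, Pi.add_apply, Pi.smul_apply, smul_eq_mul]
          ring
      rw [e]
      exact h
    refine ball_down hK hr hp (by simp) ?_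
    simp only [Fin.cons_succ, Fin.tail]
    exact Finset.sum_le_sum fun i _ => pow_le_pow_left₀ (hy0 _) (hyx _) 2

end Vale.Agent.P254r
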